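import Vale.Agent.P073.ALX487.Flat
import Vale.Agent.P073.SCH.Nest
import Vale.Agent.P073.H894.AlxGL

/-!
# P073, block ALX: existence of cuts when the circles of consecutive layers do not cross

`specCut_noCross : SpecCut NoCross`.
-/

open Set Metric Topology Filter

namespace P073.ALX487

open P073 P073.ALX P073.H240 P073.SCH

variable {Rel : Set P → Set P → Prop} {s : ℕ → ℝ} {T : Finset (ℕ × Set P)} {S : Set V}

/-- if the boundary of a disc is in another disc then the disc is inside -/
theorem subset_of_frontier {D D' : Set P} (h : AmbDisc D) (h' : AmbDisc D')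
    (hf : frontier D ⊆ D') : D ⊆ D' := by
  have hd : Disjoint D'ᶜ (frontier D) := disjoint_compl_left_iff_subset.2 hf
  rcases subset_interior_or_compl h'.isPreconnected_compl hd with h1 | h1
  · exact absurd (h.isCompact.isBounded.subset (h1.trans interior_subset))
      (not_isBounded_compl h'.isCompact.isBounded)
  · rwa [h.isClosed.closure_eq, compl_subset_compl] at h1

/-- the walls are in `S` up to their closures -/
theorem wall_subset (h : StackR Rel s T S) {w : ℕ × Set P} (hw : w ∈ T) {j : ℕ}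
    (hj : w.1 = j + 1) : w.2 ×ˢ Icc (s j) (s (j + 1)) ⊆ S := by
  have h1 : w.2 ×ˢ Ioo (s j) (s (j + 1)) ⊆ S := fun x hx =>
    (h.slab j x hx.2.1 hx.2.2).2 ⟨w, hw, hj, hx.1⟩
  have h2 := closure_minimal h1 h.sphere.isCompact.isClosed
  rwa [closure_prod_eq, closure_Ioo (h.mono (Nat.lt_succ_self j)).ne,
    (IsCircle.isCompact (h.circ w hw)).isClosed.closure_eq] at h2

/-- off the levels there are only walls -/
theorem exists_wall (h : StackR Rel s T S) : T.Nonempty := by
  by_contra hT
  rw [Finset.not_nonempty_iff_eq_empty] at hT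
  have hlev : ∀ x ∈ S, ∃ k, x.2 = s k := by
    intro x hx
    by_contra hcon
    push Not at hcon
    have hall : ∀ k, s k < x.2 := by
      intro k
      induction k with
      | zero => exact lt_of_le_of_ne (h.low x hx) (fun he => hcon 0 he.symm)
      | succ k ih =>
        rcases lt_trichotomy x.2 (s (k + 1)) with h1 | h1 | h1
        · obtain ⟨w, hw, -⟩ := (h.slab k x ih h1).1 hx
          rw [hT] at hw
          exact absurd hw (Finset.notMem_empty w)
        · exact absurd h1 (hcon _)
        · exact h1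
    obtain ⟨n, hn⟩ := h.up x hx
    exact lt_asymm hn (hall n)
  have hsub : (Prod.snd '' S).Subsingleton := by
    have hc : (Prod.snd '' S).Countable := by
      refine (countable_range s).mono ?_
      rintro _ ⟨x, hx, rfl⟩
      obtain ⟨k, hk⟩ := hlev x hx
      exact ⟨k, hk.symm⟩
    have hp : IsPreconnected (Prod.snd '' S) := h.sphere.isPreconnected.image _ continuous_snd.continuousOn
    by_contra hns
    rw [not_subsingleton_iff] at hns
    obtain ⟨a, ha, b, hb, hab⟩ := hns
    rcases lt_or_gt_of_ne hab with hlt | hlt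
    · have := (hp.ordConnected.out ha hb)
      exact (Cardinal.Real.Icc_countable_iff.not.2 (not_le.2 hlt)) (hc.mono this)
    · have := (hp.ordConnected.out hb ha)
      exact (Cardinal.Real.Icc_countable_iff.not.2 (not_le.2 hlt)) (hc.mono this)
  obtain ⟨x₀, hx₀⟩ := h.sphere.nonempty
  exact h.sphere.not_subset_plane x₀.2 fun x hx => hsub ⟨x, hx, rfl⟩ ⟨x₀, hx₀, rfl⟩

theorem conSphere_column {D : Set P} (hD : AmbDisc D) {a b : ℝ} (hab : a < b) :
    ConSphere 2 (frontier (D ×ˢ Icc a b) : Set V) := by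
  obtain ⟨Φ, hΦ⟩ := column_sphere hD hab
  have h1 : ConSphere 2 (Φ.symm.toFun '' sphere (0 : Fin 3 → ℝ) 1) :=
    ⟨(Φ.symm.restr (conicalSet_sphere_pi 3) (subset_univ _)).symm⟩
  rwa [← hΦ, ConHomeo.symm_toFun, Φ.image_inv_image] at h1

/-- **Existence of cuts** from a disc over which no trace passes -/
theorem hasCut_of_disc (h : StackR Rel s T S) {w : ℕ × Set P} (hw : w ∈ T) {D : Set P}
    (hD : AmbDisc D) (hDf : frontier D = w.2)
    (hmiss : ∀ w' ∈ T, w'.1 = w.1 ∨ w'.1 = w.1 + 1 ∨ w'.1 + 1 = w.1 →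
      Disjoint (interior D) w'.2) : HasCut s S := by
  obtain ⟨j, hj⟩ : ∃ j, w.1 = j + 1 := Nat.exists_eq_succ_of_ne_zero (h.pos w hw)
  have hwall := wall_subset h hw hj
  have hlt := h.mono (Nat.lt_succ_self j)
  have hg : ∀ k, (k = j ∨ k = j + 1 ∨ k = j + 2) → Disjoint (interior D) (Gam T k) := by
    intro k hk
    rw [disjoint_left]
    rintro u hu ⟨w', hw', hw'k, huw'⟩
    refine disjoint_left.1 (hmiss w' hw' ?_) hu huw'
    omega
  have hcut : ∀ k, (k = j ∨ k = j + 1) → (∀ u ∈ interior D, (u, s k) ∉ S) → HasCut s S := by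
    intro k hk hn
    left
    refine ⟨k, D, hD, ?_⟩
    apply Subset.antisymm
    · rintro ⟨u, z⟩ ⟨⟨hu, hz⟩, hS⟩
      have hz' : z = s k := hz
      subst hz'
      refine ⟨?_, rfl⟩
      rw [← AmbDisc.union_eq hD] at hu
      rcases hu with h1 | h1
      · exact absurd hS (hn u h1)
      · exact h1
    · rintro ⟨u, z⟩ ⟨hu, hz⟩
      have hz' : z = s k := hz
      subst hz'
      have hu' : u ∈ frontier D := hu
      refine ⟨⟨AmbDisc.frontier_subset hD hu', rfl⟩, hwall ⟨hDf ▸ hu', ?_⟩⟩
      rcases hk with rfl | rfl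
      · exact ⟨le_refl _, hlt.le⟩
      · exact ⟨hlt.le, le_refl _⟩
  have hpre := hD.isConnected_interior.isPreconnected
  rcases flat_part h (k := j) hpre (hg j (Or.inl rfl)) (hg (j + 1) (Or.inr (Or.inl rfl))) with
    h1 | h1
  swap
  · exact hcut j (Or.inl rfl) h1
  rcases flat_part h (k := j + 1) hpre (hg (j + 1) (Or.inr (Or.inl rfl)))
    (hg (j + 1 + 1) (Or.inr (Or.inr rfl))) with h2 | h2
  swap
  · exact hcut (j + 1) (Or.inr rfl) h2
  right
  refine ⟨D, s j, s (j + 1), hD, hlt, ?_⟩
  refine ((conSphere_column hD hlt).eq_of_subset h.sphere ?_).symm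
  rw [column_frontier hD hlt]
  rintro ⟨u, z⟩ (⟨hu, hz⟩ | ⟨hu, hz⟩)
  · exact hwall ⟨hDf ▸ hu, hz⟩
  · have hu' : u ∈ D := hu
    rw [← AmbDisc.union_eq hD] at hu'
    have hz' : z = s j ∨ z = s (j + 1) := hz
    rcases hu' with hu' | hu'
    · rcases hz' with rfl | rfl
      · exact h1 u hu'
      · exact h2 u hu'
    · refine hwall ⟨hDf ▸ hu', ?_⟩
      rcases hz' with rfl | rfl
      · exact ⟨le_refl _, hlt.le⟩
      · exact ⟨hlt.le, le_refl _⟩

open Classical in
/-- the disc bounded by a circle -/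
noncomputable def dsc (c : Set P) : Set P := if h : IsCircle c then (jordan h).choose else ∅

theorem dsc_spec {c : Set P} (h : IsCircle c) : AmbDisc (dsc c) ∧ frontier (dsc c) = c := by
  unfold dsc
  rw [dif_pos h]
  exact (jordan h).choose_spec.1

/-- **SpecCut for non crossing circles** -/
theorem specCut_noCross : SpecCut NoCross := by
  intro s T S h
  obtain ⟨w, hwm⟩ := Finset.exists_minimalFor (fun w : ℕ × Set P => dsc w.2) T (exists_wall h)
  obtain ⟨hw, hmin⟩ := hwm
  obtain ⟨hD, hDf⟩ := dsc_spec (h.circ w hw)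
  refine hasCut_of_disc h hw hD hDf ?_
  intro w' hw' hcase
  obtain ⟨hD', hDf'⟩ := dsc_spec (h.circ w' hw')
  -- a circle inside the disc is its boundary
  have key : w'.2 ⊆ dsc w.2 → Disjoint (interior (dsc w.2)) w'.2 := by
    intro hsub
    have h1 : dsc w'.2 ⊆ dsc w.2 := subset_of_frontier hD' hD (by rw [hDf']; exact hsub)
    have h2 : dsc w.2 ⊆ dsc w'.2 := hmin hw' h1
    have h3 : dsc w.2 = dsc w'.2 := Subset.antisymm h2 h1
    rw [h3]
    conv_rhs => rw [← hDf']
    exact AmbDisc.not_frontier_interior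
  rcases hcase with hc | hc | hc
  · by_cases heq : w'.2 = w.2
    · exact key (by rw [heq]; conv_lhs => rw [← hDf]
                    exact AmbDisc.frontier_subset hD)
    · have hdis := h.disj w' hw' w hw hc heq
      rcases subset_interior_or_compl (D := dsc w.2) (S := w'.2)
        (by rw [← hDf']; exact AmbDisc.isPreconnected_frontier hD') (by rw [hDf]; exact hdis) with h1 | h1
      · exact key (h1.trans interior_subset)
      · rw [disjoint_left]
        intro u hu hu'
        exact h1 hu' (subset_closure (interior_subset hu))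
  · have := (h.rel w hw w' hw' hc) (dsc w.2) (dsc w'.2) hD hDf hD' hDf'
    rcases this.1 with h1 | h1
    · exact key h1
    · exact h1.symm
  · have := (h.rel w' hw' w hw hc.symm) (dsc w'.2) (dsc w.2) hD' hDf' hD hDf
    rcases this.2 with h1 | h1
    · exact key h1
    · exact h1.symm

end P073.ALX487
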