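import Vale.Agent.P073.ALX487.Exist

/-!
# P073, block ALX: existence of cuts when circles of consecutive layers share rays

`specCut_share : SpecMin → SpecCut Share` (the chain of lids); `SpecMin` is the planar minimal disc
lemma.
-/

open Set Metric Topology Filter

namespace P073.ALX487

open P073 P073.ALX P073.H240 P073.SCH

variable {Rel : Set P → Set P → Prop} {s : ℕ → ℝ} {T : Finset (ℕ × Set P)} {S : Set V}

/-- **Minimal disc lemma** (planar) -/
def SpecMin : Prop := ∀ (D K : Set P) (G : Finset (Set P)), AmbDisc D → (∀ d ∈ G, IsCircle d) →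
  (∀ d ∈ G, ∀ d' ∈ G, d ≠ d' → Disjoint d d') → (∀ d ∈ G, ¬ d ⊆ interior D) →
  (∀ d ∈ G, Share (frontier D) d) → frontier D ⊆ K → (∀ d ∈ G, d ⊆ K) →
  (∀ O, IsPreconnected O → O ⊆ interior D → (∀ d ∈ G, Disjoint O d) → O ⊆ K ∨ Disjoint O K) →
  interior D ⊆ K ∨ ∃ E, AmbDisc E ∧ E ⊆ D ∧ E ∩ K = frontier E

/-- the open disc of the wall `w` misses the circles of its own layer -/
def Inn (T : Finset (ℕ × Set P)) (w : ℕ × Set P) : Prop :=
  ∀ w' ∈ T, w'.1 = w.1 → Disjoint (interior (dsc w.2)) w'.2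

theorem Inn.gam {w : ℕ × Set P} (h : Inn T w) : Disjoint (interior (dsc w.2)) (Gam T w.1) := by
  rw [disjoint_left]
  rintro u hu ⟨w', hw', h1, h2⟩
  exact disjoint_left.1 (h w' hw' h1) hu h2

theorem exists_inn (h : StackR Rel s T S) {j : ℕ} {F : Finset (ℕ × Set P)} (hF : F ⊆ T)
    (hj : ∀ w ∈ F, w.1 = j) (hne : F.Nonempty)
    (hdown : ∀ w ∈ F, ∀ w' ∈ T, w'.1 = j → w'.2 ⊆ interior (dsc w.2) → w' ∈ F) :
    ∃ w ∈ F, Inn T w := by
  obtain ⟨w, hw, hmin⟩ := Finset.exists_minimalFor (fun w : ℕ × Set P => dsc w.2) F hne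
  refine ⟨w, hw, fun w' hw' hww' => ?_⟩
  obtain ⟨hD, hDf⟩ := dsc_spec (h.circ w (hF hw))
  obtain ⟨hD', hDf'⟩ := dsc_spec (h.circ w' hw')
  by_cases heq : w'.2 = w.2
  · rw [heq]
    conv_rhs => rw [← hDf]
    exact AmbDisc.not_frontier_interior
  · have hdis := h.disj w' hw' w (hF hw) hww' heq
    rcases subset_interior_or_compl (D := dsc w.2) (S := w'.2)
      (by rw [← hDf']; exact AmbDisc.isPreconnected_frontier hD') (by rw [hDf]; exact hdis) with
      h1 | h1
    · exfalso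
      have hw'F : w' ∈ F := hdown w hw w' hw' (hww'.trans (hj w hw)) h1
      have h2 : dsc w'.2 ⊆ interior (dsc w.2) :=
        AmbDisc.subset_interior_of_frontier hD' hD (by rw [hDf']; exact h1)
      have h3 : dsc w.2 ⊆ dsc w'.2 := hmin hw'F (h2.trans interior_subset)
      obtain ⟨u, hu⟩ := AmbDisc.frontier_nonempty hD
      exact disjoint_left.1 (AmbDisc.not_frontier_interior (D := dsc w.2))
        (h2 (h3 (AmbDisc.frontier_subset hD hu))) hu
    · rw [disjoint_left]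
      intro u hu hu'
      exact h1 hu' (subset_closure (interior_subset hu))

/-- a disc in a level whose interior misses `S` and whose boundary is in `S` -/
theorem hasCut_of_missing {k : ℕ} {D : Set P} (hD : AmbDisc D)
    (h1 : ∀ u ∈ interior D, (u, s k) ∉ S) (h2 : ∀ u ∈ frontier D, (u, s k) ∈ S) : HasCut s S := by
  left
  refine ⟨k, D, hD, ?_⟩
  apply Subset.antisymm
  · rintro ⟨u, z⟩ ⟨⟨hu, hz⟩, hS⟩
    have hz' : z = s k := hz
    subst hz'
    refine ⟨?_, rfl⟩
    rw [← AmbDisc.union_eq hD] at hu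
    rcases hu with h3 | h3
    · exact absurd hS (h1 u h3)
    · exact h3
  · rintro ⟨u, z⟩ ⟨hu, hz⟩
    have hz' : z = s k := hz
    subst hz'
    exact ⟨⟨AmbDisc.frontier_subset hD hu, rfl⟩, h2 u hu⟩

/-- two lids -/
theorem hasCut_of_lids (h : StackR Rel s T S) {w : ℕ × Set P} (hw : w ∈ T) {j : ℕ}
    (hj : w.1 = j + 1) (h1 : ∀ u ∈ interior (dsc w.2), (u, s j) ∈ S)
    (h2 : ∀ u ∈ interior (dsc w.2), (u, s (j + 1)) ∈ S) : HasCut s S := by
  obtain ⟨hD, hDf⟩ := dsc_spec (h.circ w hw)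
  have hwall := wall_subset h hw hj
  have hlt := h.mono (Nat.lt_succ_self j)
  right
  refine ⟨dsc w.2, s j, s (j + 1), hD, hlt, ?_⟩
  refine ((conSphere_column hD hlt).eq_of_subset h.sphere ?_).symm
  rw [column_frontier hD hlt]
  rintro ⟨u, z⟩ (⟨hu, hz⟩ | ⟨hu, hz⟩)
  · exact hwall ⟨hDf ▸ hu, hz⟩
  · have hu' : u ∈ dsc w.2 := hu
    rw [← AmbDisc.union_eq hD] at hu'
    have hz' : z = s j ∨ z = s (j + 1) := hz
    rcases hu' with hu' | hu'
    · rcases hz' with rfl | rfl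
      · exact h1 u hu'
      · exact h2 u hu'
    · refine hwall ⟨hDf ▸ hu', ?_⟩
      rcases hz' with rfl | rfl
      · exact ⟨le_refl _, hlt.le⟩
      · exact ⟨hlt.le, le_refl _⟩

theorem wall_bot (h : StackR Rel s T S) {w : ℕ × Set P} (hw : w ∈ T) {j : ℕ}
    (hj : w.1 = j + 1) {u : P} (hu : u ∈ w.2) : (u, s j) ∈ S :=
  wall_subset h hw hj ⟨hu, le_refl _, (h.mono (Nat.lt_succ_self j)).le⟩

theorem wall_top (h : StackR Rel s T S) {w : ℕ × Set P} (hw : w ∈ T) {j : ℕ}
    (hj : w.1 = j) {u : P} (hu : u ∈ w.2) : (u, s j) ∈ S := by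
  obtain ⟨i, hi⟩ : ∃ i, w.1 = i + 1 := Nat.exists_eq_succ_of_ne_zero (h.pos w hw)
  obtain rfl : j = i + 1 := by omega
  exact wall_subset h hw hi ⟨hu, (h.mono (Nat.lt_succ_self i)).le, le_refl _⟩

/-- **SpecCut for circles sharing rays** -/
theorem specCut_share (hMin : SpecMin) : SpecCut Share := by
  intro s T S h
  classical
  by_contra hno
  -- walls with a lid below
  have hstart : (T.filter fun w => Inn T w ∧
      ∀ u ∈ interior (dsc w.2), (u, s (w.1 - 1)) ∈ S).Nonempty := by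
    obtain ⟨w₀, hw₀, hw₀min⟩ := Finset.exists_min_image T (fun w => w.1) (exists_wall h)
    obtain ⟨w, hw, hwI⟩ := exists_inn h (j := w₀.1) (F := T.filter fun w => w.1 = w₀.1)
      (Finset.filter_subset _ _) (fun w hw => (Finset.mem_filter.1 hw).2)
      ⟨w₀, Finset.mem_filter.2 ⟨hw₀, rfl⟩⟩
      (fun w _ w' hw' hj _ => Finset.mem_filter.2 ⟨hw', hj⟩)
    obtain ⟨hwT, hwj⟩ := Finset.mem_filter.1 hw
    refine ⟨w, Finset.mem_filter.2 ⟨hwT, hwI, ?_⟩⟩
    obtain ⟨j, hj⟩ : ∃ j, w.1 = j + 1 := Nat.exists_eq_succ_of_ne_zero (h.pos w hwT)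
    obtain ⟨hD, hDf⟩ := dsc_spec (h.circ w hwT)
    have hg : Disjoint (interior (dsc w.2)) (Gam T j) := by
      rw [disjoint_left]
      rintro u - ⟨w', hw', h1, -⟩
      have := hw₀min w' hw'
      omega
    rw [hj, Nat.add_sub_cancel]
    rcases flat_part h hD.isConnected_interior.isPreconnected hg (hj ▸ hwI.gam) with h1 | h1
    · exact h1
    · exact absurd (hasCut_of_missing hD h1 fun u hu => wall_bot h hwT hj (hDf ▸ hu)) hno
  obtain ⟨w, hwF, hwmax⟩ := Finset.exists_max_image _ (fun w => w.1) hstart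
  obtain ⟨hwT, hwI, hlid⟩ := Finset.mem_filter.1 hwF
  obtain ⟨j, hj⟩ : ∃ j, w.1 = j + 1 := Nat.exists_eq_succ_of_ne_zero (h.pos w hwT)
  rw [hj, Nat.add_sub_cancel] at hlid
  obtain ⟨hD, hDf⟩ := dsc_spec (h.circ w hwT)
  by_cases hins : ∃ w' ∈ T, w'.1 = j + 1 + 1 ∧ w'.2 ⊆ interior (dsc w.2)
  · -- a circle of the next layer inside the disc
    obtain ⟨w', hw'F, hw'I⟩ := exists_inn h (j := j + 1 + 1)
      (F := T.filter fun w' => w'.1 = j + 1 + 1 ∧ w'.2 ⊆ interior (dsc w.2))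
      (Finset.filter_subset _ _) (fun w hw => (Finset.mem_filter.1 hw).2.1)
      (by obtain ⟨w', h1, h2⟩ := hins; exact ⟨w', Finset.mem_filter.2 ⟨h1, h2⟩⟩)
      (fun w₁ hw₁ w₂ hw₂ hj₂ hsub => by
        obtain ⟨hw₁T, hw₁j, hw₁s⟩ := Finset.mem_filter.1 hw₁
        obtain ⟨hD₁, hDf₁⟩ := dsc_spec (h.circ w₁ hw₁T)
        exact Finset.mem_filter.2 ⟨hw₂, hj₂, (hsub.trans interior_subset).trans
          (AmbDisc.subset_interior_of_frontier hD₁ hD (by rw [hDf₁]; exact hw₁s))⟩)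
    obtain ⟨hw'T, hw'j, hw's⟩ := Finset.mem_filter.1 hw'F
    obtain ⟨hD', hDf'⟩ := dsc_spec (h.circ w' hw'T)
    have hDD : dsc w'.2 ⊆ interior (dsc w.2) :=
      AmbDisc.subset_interior_of_frontier hD' hD (by rw [hDf']; exact hw's)
    have hg1 : Disjoint (interior (dsc w'.2)) (Gam T (j + 1)) := by
      have := hwI.gam
      rw [hj] at this
      exact this.mono_left (interior_subset.trans hDD)
    have hg2 : Disjoint (interior (dsc w'.2)) (Gam T (j + 1 + 1)) := by
      have := hw'I.gam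
      rwa [hw'j] at this
    rcases flat_part h hD'.isConnected_interior.isPreconnected hg1 hg2 with h1 | h1
    · have hmem : w' ∈ T.filter fun w => Inn T w ∧
          ∀ u ∈ interior (dsc w.2), (u, s (w.1 - 1)) ∈ S :=
        Finset.mem_filter.2 ⟨hw'T, hw'I, by rw [hw'j, Nat.add_sub_cancel]; exact h1⟩
      have := hwmax w' hmem
      omega
    · exact absurd (hasCut_of_missing hD' h1 fun u hu => wall_bot h hw'T hw'j (hDf' ▸ hu)) hno
  · -- the minimal disc lemma
    push Not at hins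
    have hm : interior (dsc w.2) ⊆ {u : P | (u, s (j + 1)) ∈ S} ∨
        ∃ E, AmbDisc E ∧ E ⊆ dsc w.2 ∧ E ∩ {u : P | (u, s (j + 1)) ∈ S} = frontier E := by
      refine hMin (dsc w.2) {u : P | (u, s (j + 1)) ∈ S}
        ((T.filter fun w' => w'.1 = j + 1 + 1).image Prod.snd) hD ?_ ?_ ?_ ?_ ?_ ?_ ?_
      · intro d hd
        obtain ⟨w', hw', rfl⟩ := Finset.mem_image.1 hd
        exact h.circ w' (Finset.mem_filter.1 hw').1
      · intro d hd d' hd' hne
        obtain ⟨w₁, hw₁, rfl⟩ := Finset.mem_image.1 hd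
        obtain ⟨w₂, hw₂, rfl⟩ := Finset.mem_image.1 hd'
        obtain ⟨a1, a2⟩ := Finset.mem_filter.1 hw₁
        obtain ⟨b1, b2⟩ := Finset.mem_filter.1 hw₂
        exact h.disj w₁ a1 w₂ b1 (a2.trans b2.symm) hne
      · intro d hd
        obtain ⟨w', hw', rfl⟩ := Finset.mem_image.1 hd
        obtain ⟨a1, a2⟩ := Finset.mem_filter.1 hw'
        exact hins w' a1 a2
      · intro d hd
        obtain ⟨w', hw', rfl⟩ := Finset.mem_image.1 hd
        obtain ⟨a1, a2⟩ := Finset.mem_filter.1 hw'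
        rw [hDf]
        exact h.rel w hwT w' a1 (by rw [a2, hj])
      · intro u hu
        rw [hDf] at hu
        exact wall_top h hwT hj hu
      · intro d hd u hu
        obtain ⟨w', hw', rfl⟩ := Finset.mem_image.1 hd
        obtain ⟨a1, a2⟩ := Finset.mem_filter.1 hw'
        exact wall_bot h a1 a2 hu
      · intro O hO hOD hOG
        have hg1 : Disjoint O (Gam T (j + 1)) := by
          have := hwI.gam
          rw [hj] at this
          exact this.mono_left hOD
        have hg2 : Disjoint O (Gam T (j + 1 + 1)) := by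
          rw [disjoint_left]
          rintro u hu ⟨w', hw', h1, h2⟩
          exact disjoint_left.1 (hOG w'.2 (Finset.mem_image.2 ⟨w', Finset.mem_filter.2 ⟨hw', h1⟩, rfl⟩))
            hu h2
        rcases flat_part h hO hg1 hg2 with h1 | h1
        · exact Or.inl h1
        · right
          rw [disjoint_left]
          exact h1
    rcases hm with h1 | h1
    · exact hno (hasCut_of_lids h hwT hj hlid fun u hu => h1 hu)
    · obtain ⟨E, hE, hED, hEK⟩ := h1
      refine hno (Or.inl ⟨j + 1, E, hE, ?_⟩)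
      ext ⟨u, z⟩
      constructor
      · rintro ⟨⟨hu, hz⟩, hS⟩
        have hz' : z = s (j + 1) := hz
        subst hz'
        exact ⟨hEK.subset ⟨hu, hS⟩, rfl⟩
      · rintro ⟨hu, hz⟩
        have hz' : z = s (j + 1) := hz
        subst hz'
        have := hEK.symm.subset hu
        exact ⟨⟨this.1, rfl⟩, this.2⟩

end P073.ALX487
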