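import Vale.Agent.P073.ALX487.Local
import Vale.Agent.P073.H240.Stack

/-!
# P073, block ALX: the horizontal part of a stack sphere

`flat_part`: a connected set of the level `s k` which misses the traces of the walls below and
above is contained in `S` or disjoint from `S`.
-/

open Set Metric Topology Filter

namespace P073.ALX487

open P073 P073.ALX P073.H240

variable {Rel : Set P → Set P → Prop} {s : ℕ → ℝ} {T : Finset (ℕ × Set P)} {S : Set V}

theorem isClosed_gam (h : StackR Rel s T S) (j : ℕ) : IsClosed (Gam T j) := by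
  have e : Gam T j = ⋃ w ∈ T.filter (fun w => w.1 = j), w.2 := by
    ext p
    simp only [Gam, mem_ofPred_eq, mem_iUnion, Finset.mem_filter, exists_prop]
    constructor
    · rintro ⟨w, h1, h2, h3⟩; exact ⟨w, ⟨h1, h2⟩, h3⟩
    · rintro ⟨w, ⟨h1, h2⟩, h3⟩; exact ⟨w, h1, h2, h3⟩
  rw [e]
  refine (Finset.finite_toSet _).isClosed_biUnion fun w hw => ?_
  exact (IsCircle.isCompact (h.circ w (Finset.mem_filter.1 hw).1)).isClosed

theorem gam_zero (h : StackR Rel s T S) : Gam T 0 = ∅ := by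
  ext p
  simp only [Gam, mem_ofPred_eq, mem_empty_iff_false, iff_false]
  rintro ⟨w, h1, h2, -⟩
  exact h.pos w h1 h2

/-- near a point of the level `s k` off the traces the sphere is horizontal -/
theorem slice_nhds (h : StackR Rel s T S) {k : ℕ} {w : P} (hw1 : w ∉ Gam T k)
    (hw2 : w ∉ Gam T (k + 1)) (hwS : (w, s k) ∈ S) : {u : P | (u, s k) ∈ S} ∈ 𝓝 w := by
  have hG : IsOpen ((Gam T k)ᶜ ∩ (Gam T (k + 1))ᶜ) :=
    (isClosed_gam h k).isOpen_compl.inter (isClosed_gam h (k + 1)).isOpen_compl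
  obtain ⟨a, ha, haS⟩ : ∃ a < s k, ∀ q ∈ S, a < q.2 → q.2 < s k → q.1 ∈ Gam T k := by
    rcases Nat.eq_zero_or_pos k with hk | hk
    · subst hk
      refine ⟨s 0 - 1, by linarith, fun q hq _ h2 => ?_⟩
      exact absurd (h.low q hq) (not_le.2 h2)
    · obtain ⟨m, rfl⟩ : ∃ m, k = m + 1 := ⟨k - 1, by omega⟩
      refine ⟨s m, h.mono (Nat.lt_succ_self m), fun q hq h1 h2 => ?_⟩
      exact (h.slab m q h1 h2).1 hq
  have hN : ((Gam T k)ᶜ ∩ (Gam T (k + 1))ᶜ) ×ˢ Ioo a (s (k + 1)) ∈ 𝓝 ((w, s k) : V) := by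
    refine prod_mem_nhds (hG.mem_nhds ⟨hw1, hw2⟩) (Ioo_mem_nhds ha (h.mono (Nat.lt_succ_self k)))
  refine slice_mem_nhds (p := (w, s k)) (h.sphere.hasChart hwS) hN ?_
  rintro q ⟨hqS, hq1, hq2⟩
  rcases lt_trichotomy q.2 (s k) with h1 | h1 | h1
  · exact absurd (haS q hqS hq2.1 h1) hq1.1
  · exact h1
  · exact absurd ((h.slab k q h1 hq2.2).1 hqS) hq1.2

/-- **(F)** -/
theorem flat_part (h : StackR Rel s T S) {k : ℕ} {O : Set P} (hO : IsPreconnected O)
    (h1 : Disjoint O (Gam T k)) (h2 : Disjoint O (Gam T (k + 1))) :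
    (∀ w ∈ O, (w, s k) ∈ S) ∨ ∀ w ∈ O, (w, s k) ∉ S := by
  have hcl : IsClosed {u : P | (u, s k) ∈ S} :=
    h.sphere.isCompact.isClosed.preimage (Continuous.prodMk_left (s k))
  have hsub : O ⊆ interior {u : P | (u, s k) ∈ S} ∪ {u : P | (u, s k) ∈ S}ᶜ := by
    intro w hw
    by_cases hwS : (w, s k) ∈ S
    · left
      exact mem_interior_iff_mem_nhds.2 (slice_nhds h (disjoint_left.1 h1 hw)
        (disjoint_left.1 h2 hw) hwS)
    · exact Or.inr hwS
  by_contra hcon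
  push Not at hcon
  obtain ⟨⟨x, hx, hxS⟩, y, hy, hyS⟩ := hcon
  have hyS' := (hsub hy).resolve_right (fun hn => hn hyS)
  obtain ⟨z, -, hz1, hz2⟩ := hO _ _ isOpen_interior hcl.isOpen_compl hsub ⟨y, hy, hyS'⟩ ⟨x, hx, hxS⟩
  exact hz2 (interior_subset hz1)

end P073.ALX487
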