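import Vale.Agent.P073.IoD
import Vale.Agent.P073.H339.SphereJS
import Vale.Agent.P073.H894.Column

/-!
# P073, block ALX: conical spheres are surfaces; consequences of invariance of domain

* `HasChart S p`: two-dimensional chart of `S` at `p`.
* `ConSphere.hasChart`: every point of a conical 2-sphere has a chart.
* `slice_mem_nhds`: a surface which is horizontal near `p` contains a horizontal disc.
* `ConSphere.eq_of_subset`: a conical 2-sphere has no proper conical subsphere.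
* `ConSphere.not_subset_plane`.
-/

open Set Metric Topology Filter

namespace P073.ALX487

open P073

variable {E : Type*} [NormedAddCommGroup E] [NormedSpace ℝ E]

/-- a two dimensional chart of `S` at `p` -/
def HasChart (S : Set E) (p : E) : Prop :=
  ∃ (O : Set E) (f : (Fin 2 → ℝ) → E) (g : E → (Fin 2 → ℝ)), IsOpen O ∧ p ∈ S ∩ O ∧
    ContinuousOn f (ball 0 1) ∧ ContinuousOn g (S ∩ O) ∧ f '' ball 0 1 = S ∩ O ∧
    ∀ x ∈ ball (0 : Fin 2 → ℝ) 1, g (f x) = x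

theorem hasChart_of_conBall {C B S O : Set E} (hC : ConBall 2 C B) (hO : IsOpen O)
    (hCB : C \ B = S ∩ O) {p : E} (hp : p ∈ C \ B) : HasChart S p := by
  obtain ⟨hBC, φ, hφ⟩ := hC
  have e : C \ B = φ.invFun '' ball 0 1 := by
    ext x
    constructor
    · rintro ⟨hx, hxB⟩
      refine ⟨φ.toFun x, ?_, φ.left_inv hx⟩
      have h1 : φ.toFun x ∈ closedBall (0 : Fin 2 → ℝ) 1 := φ.mapsTo hx
      rw [mem_ball_zero_iff]
      rw [mem_closedBall_zero_iff] at h1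
      refine lt_of_le_of_ne h1 fun heq => hxB ?_
      have h2 : φ.toFun x ∈ φ.toFun '' B := by
        rw [hφ, mem_sphere_zero_iff_norm]; exact heq
      obtain ⟨y, hy, hyx⟩ := h2
      rw [← φ.injOn (hBC hy) hx hyx]; exact hy
    · rintro ⟨y, hy, rfl⟩
      have hy' : y ∈ closedBall (0 : Fin 2 → ℝ) 1 := ball_subset_closedBall hy
      refine ⟨φ.mapsTo_inv hy', fun hB => ?_⟩
      have h2 : φ.toFun (φ.invFun y) ∈ φ.toFun '' B := mem_image_of_mem _ hB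
      rw [φ.right_inv hy', hφ, mem_sphere_zero_iff_norm] at h2
      rw [mem_ball_zero_iff, h2] at hy
      exact lt_irrefl _ hy
  refine ⟨O, φ.invFun, φ.toFun, hO, hCB ▸ hp, φ.cont_inv.mono ball_subset_closedBall, ?_,
    by rw [← e, hCB], fun x hx => φ.right_inv (ball_subset_closedBall hx)⟩
  rw [← hCB]
  exact φ.cont.mono Set.sdiff_subset

/-- signed coordinate permutation of `ℝ³`, an involution -/
def sgnPerm (i : Fin 3) (ε : ℝ) : (Fin 3 → ℝ) →ₗ[ℝ] (Fin 3 → ℝ) where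
  toFun := fun v k => ε * v (Equiv.swap i 2 k)
  map_add' := fun v w => by ext k; simp only [Pi.add_apply]; ring
  map_smul' := fun a v => by ext k; simp only [Pi.smul_apply, smul_eq_mul, RingHom.id_apply]; ring

theorem sgnPerm_sgnPerm (i : Fin 3) {ε : ℝ} (hε : ε * ε = 1) (v : Fin 3 → ℝ) :
    sgnPerm i ε (sgnPerm i ε v) = v := by
  ext k
  show ε * (ε * v (Equiv.swap i 2 (Equiv.swap i 2 k))) = v k
  rw [Equiv.swap_apply_self, ← mul_assoc, hε, one_mul]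

theorem norm_sgnPerm_le (i : Fin 3) {ε : ℝ} (hε : ε * ε = 1) (v : Fin 3 → ℝ) :
    ‖sgnPerm i ε v‖ ≤ ‖v‖ := by
  rw [pi_norm_le_iff_of_nonneg (norm_nonneg _)]
  intro k
  show ‖ε * v (Equiv.swap i 2 k)‖ ≤ ‖v‖
  have h1 : ‖ε‖ = 1 := by
    have h2 : ‖ε‖ * ‖ε‖ = 1 := by rw [← norm_mul, hε, norm_one]
    nlinarith [norm_nonneg ε]
  rw [norm_mul, h1, one_mul]
  exact norm_le_pi_norm _ _

theorem norm_sgnPerm (i : Fin 3) {ε : ℝ} (hε : ε * ε = 1) (v : Fin 3 → ℝ) :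
    ‖sgnPerm i ε v‖ = ‖v‖ := by
  refine le_antisymm (norm_sgnPerm_le i hε v) ?_
  conv_lhs => rw [← sgnPerm_sgnPerm i hε v]
  exact norm_sgnPerm_le i hε _

theorem continuous_sgnPerm (i : Fin 3) (ε : ℝ) : Continuous (sgnPerm i ε) := by
  refine continuous_pi fun k => ?_
  show Continuous fun v : Fin 3 → ℝ => ε * v (Equiv.swap i 2 k)
  fun_prop

/-- the signed coordinate permutation as an ambient conical homeomorphism -/
noncomputable def sgnHomeo (i : Fin 3) {ε : ℝ} (hε : ε * ε = 1) :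
    ConHomeo (univ : Set (Fin 3 → ℝ)) (univ : Set (Fin 3 → ℝ)) where
  toFun := sgnPerm i ε
  invFun := sgnPerm i ε
  mapsTo := mapsTo_univ _ _
  mapsTo_inv := mapsTo_univ _ _
  left_inv := fun v _ => sgnPerm_sgnPerm i hε v
  right_inv := fun v _ => sgnPerm_sgnPerm i hε v
  cont := (continuous_sgnPerm i ε).continuousOn
  cont_inv := (continuous_sgnPerm i ε).continuousOn
  conical := conicalOn_linear (sgnPerm i ε) (IsOpen.conicalSet isOpen_univ)

/-- every point of the cube surface is in an open hemisphere -/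
theorem exists_hemi {v : Fin 3 → ℝ} (hv : v ∈ sphere (0 : Fin 3 → ℝ) 1) :
    ∃ C B O : Set (Fin 3 → ℝ), ConBall 2 C B ∧ C ⊆ sphere 0 1 ∧ IsOpen O ∧
      C \ B = sphere (0 : Fin 3 → ℝ) 1 ∩ O ∧ v ∈ C \ B := by
  rw [mem_sphere_zero_iff_norm] at hv
  obtain ⟨i, hi⟩ : ∃ i, ‖v i‖ = 1 := by
    by_contra hcon
    push Not at hcon
    have h1 : ∀ i, ‖v i‖ < 1 := fun i =>
      lt_of_le_of_ne (hv ▸ norm_le_pi_norm v i) (hcon i)
    have h2 : ‖v‖ < 1 := (pi_norm_lt_iff one_pos).2 h1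
    linarith
  have hε : v i * v i = 1 := by
    rw [← sq, ← sq_abs, ← Real.norm_eq_abs, hi]; norm_num
  set ε := v i with hεdef
  let T := sgnHomeo i hε
  have hTT : ∀ x, T.toFun (T.toFun x) = x := fun x => sgnPerm_sgnPerm i hε x
  have hmem : ∀ (A : Set (Fin 3 → ℝ)) (x : Fin 3 → ℝ), x ∈ T.toFun '' A ↔ T.toFun x ∈ A := by
    intro A x
    constructor
    · rintro ⟨y, hy, rfl⟩; rw [hTT]; exact hy
    · intro h; exact ⟨_, h, hTT x⟩
  have hT2 : ∀ x : Fin 3 → ℝ, T.toFun x 2 = ε * x i := by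
    intro x
    show ε * x (Equiv.swap i 2 2) = ε * x i
    rw [Equiv.swap_apply_right]
  have hTs : ∀ x : Fin 3 → ℝ, T.toFun x ∈ sphere (0 : Fin 3 → ℝ) 1 ↔ x ∈ sphere (0 : Fin 3 → ℝ) 1 := by
    intro x
    rw [mem_sphere_zero_iff_norm, mem_sphere_zero_iff_norm]
    show ‖sgnPerm i ε x‖ = 1 ↔ _
    rw [norm_sgnPerm i hε]
  refine ⟨T.toFun '' upperHemi, T.toFun '' equator3, {x | 0 < ε * x i},
    conBall_upperHemi.image T (subset_univ _), ?_, ?_, ?_, ?_⟩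
  · intro x hx
    rw [hmem] at hx
    exact (hTs x).1 hx.1
  · exact isOpen_lt continuous_const (by fun_prop)
  · ext x
    rw [Set.mem_sdiff, hmem, hmem, mem_inter_iff]
    constructor
    · rintro ⟨⟨h1, h2⟩, h3⟩
      refine ⟨(hTs x).1 h1, ?_⟩
      show 0 < ε * x i
      rw [← hT2]
      exact lt_of_le_of_ne h2 fun h => h3 ⟨h1, h.symm⟩
    · rintro ⟨h1, h2⟩
      have h2' : 0 < ε * x i := h2
      rw [← hT2] at h2'
      exact ⟨⟨(hTs x).2 h1, h2'.le⟩, fun h => h2'.ne' h.2⟩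
  · have hv2 : v ∈ sphere (0 : Fin 3 → ℝ) 1 := by rw [mem_sphere_zero_iff_norm]; exact hv
    rw [Set.mem_sdiff, hmem, hmem]
    have h1 : 0 < T.toFun v 2 := by rw [hT2]; rw [← hεdef, hε]; exact one_pos
    exact ⟨⟨(hTs v).2 hv2, h1.le⟩, fun h => h1.ne' h.2⟩

theorem _root_.P073.ConSphere.isCompact {n : ℕ} {S : Set E} (h : ConSphere n S) : IsCompact S := by
  obtain ⟨φ⟩ := h
  exact φ.symm.isCompact_right (isCompact_sphere _ _)

/-- conical discs around every point of a conical 2-sphere -/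
theorem exists_disc {S : Set E} (hS : ConSphere 2 S) {p : E} (hp : p ∈ S) :
    ∃ C B O : Set E, ConBall 2 C B ∧ C ⊆ S ∧ IsOpen O ∧ C \ B = S ∩ O ∧ p ∈ C \ B := by
  obtain ⟨φ⟩ := hS
  obtain ⟨C, B, O, hC, hCS, hO, hCB, hv⟩ := exists_hemi (φ.mapsTo hp)
  have hBS : B ⊆ sphere 0 1 := hC.1.trans hCS
  have h1 : IsCompact (φ.invFun '' (sphere (0 : Fin 3 → ℝ) 1 \ O)) :=
    ((isCompact_sphere _ _).diff hO).image_of_continuousOn (φ.cont_inv.mono Set.sdiff_subset)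
  have hinj : ∀ x ∈ sphere (0 : Fin 3 → ℝ) 1, ∀ y ∈ sphere (0 : Fin 3 → ℝ) 1,
      φ.invFun x = φ.invFun y → x = y := fun x hx y hy h => φ.symm.injOn hx hy h
  have key : φ.invFun '' C \ φ.invFun '' B =
      S ∩ (φ.invFun '' (sphere (0 : Fin 3 → ℝ) 1 \ O))ᶜ := by
    ext z
    constructor
    · rintro ⟨⟨x, hx, rfl⟩, h2⟩
      have hxB : x ∉ B := fun h => h2 ⟨x, h, rfl⟩
      refine ⟨φ.mapsTo_inv (hCS hx), ?_⟩
      rintro ⟨y, ⟨hy1, hy2⟩, hyx⟩
      have : y = x := hinj y hy1 x (hCS hx) hyx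
      subst this
      have h3 : y ∈ C \ B := ⟨hx, hxB⟩
      rw [hCB] at h3
      exact hy2 h3.2
    · rintro ⟨hz, h2⟩
      have h3 : φ.toFun z ∈ sphere (0 : Fin 3 → ℝ) 1 := φ.mapsTo hz
      have h4 : φ.toFun z ∈ O := by
        by_contra hcon
        exact h2 ⟨φ.toFun z, ⟨h3, hcon⟩, φ.left_inv hz⟩
      have h5 : φ.toFun z ∈ C \ B := by rw [hCB]; exact ⟨h3, h4⟩
      refine ⟨⟨φ.toFun z, h5.1, φ.left_inv hz⟩, ?_⟩
      rintro ⟨y, hy, hyz⟩
      have h6 : y = φ.toFun z := hinj y (hBS hy) _ h3 (by rw [hyz, φ.left_inv hz])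
      exact h5.2 (h6 ▸ hy)
  refine ⟨φ.invFun '' C, φ.invFun '' B, (φ.invFun '' (sphere (0 : Fin 3 → ℝ) 1 \ O))ᶜ,
    hC.image φ.symm hCS, ?_, h1.isClosed.isOpen_compl, key, ?_⟩
  · rintro _ ⟨y, hy, rfl⟩
    exact φ.mapsTo_inv (hCS hy)
  · rw [key]
    refine ⟨hp, ?_⟩
    rintro ⟨y, ⟨hy1, hy2⟩, hyx⟩
    have h6 : y = φ.toFun p := hinj y hy1 _ (φ.mapsTo hp) (by rw [hyx, φ.left_inv hp])
    rw [hCB] at hv
    exact hy2 (h6 ▸ hv.2)

theorem _root_.P073.ConSphere.hasChart {S : Set E} (hS : ConSphere 2 S) {p : E} (hp : p ∈ S) :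
    HasChart S p := by
  obtain ⟨C, B, O, hC, -, hO, hCB, hpC⟩ := exists_disc hS hp
  exact hasChart_of_conBall hC hO hCB hpC

omit [NormedSpace ℝ E] in
/-- a surface mapped injectively to the plane near a point has an open image -/
theorem HasChart.image_mem_nhds {S : Set E} {p : E} (h : HasChart S p) {N : Set E} (hN : N ∈ 𝓝 p)
    (π : E → (Fin 2 → ℝ)) (hπ : ContinuousOn π (S ∩ N)) (hinj : InjOn π (S ∩ N)) :
    π '' (S ∩ N) ∈ 𝓝 (π p) := by
  obtain ⟨O, f, g, hO, hp, hf, hg, hfO, hgf⟩ := h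
  obtain ⟨x, hx, hxp⟩ := hfO.symm.subset hp
  have hW : IsOpen (ball (0 : Fin 2 → ℝ) 1 ∩ f ⁻¹' interior N) :=
    hf.isOpen_inter_preimage isOpen_ball isOpen_interior
  have hfm : MapsTo f (ball (0 : Fin 2 → ℝ) 1 ∩ f ⁻¹' interior N) (S ∩ N) := fun y hy =>
    ⟨(hfO.subset ⟨y, hy.1, rfl⟩).1, interior_subset hy.2⟩
  have hfi : InjOn f (ball (0 : Fin 2 → ℝ) 1) := fun a ha b hb hab => by
    rw [← hgf a ha, ← hgf b hb, hab]
  have hop := Vale.Agent.P073.Sep.isOpen_image_of_injOn hW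
    (f := fun y => π (f y)) (hπ.comp (hf.mono inter_subset_left) hfm)
    (fun a ha b hb hab => hfi ha.1 hb.1 (hinj (hfm ha) (hfm hb) hab))
  have hmem : π p ∈ (fun y => π (f y)) '' (ball (0 : Fin 2 → ℝ) 1 ∩ f ⁻¹' interior N) :=
    ⟨x, ⟨hx, by show f x ∈ interior N; rw [hxp]; exact mem_interior_iff_mem_nhds.2 hN⟩,
      by show π (f x) = π p; rw [hxp]⟩
  refine mem_of_superset (hop.mem_nhds hmem) ?_
  rintro _ ⟨y, hy, rfl⟩
  exact ⟨f y, hfm hy, rfl⟩

/-- **(F)**: a surface which is horizontal near `p` contains a horizontal disc around `p` -/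
theorem slice_mem_nhds {S : Set ((ℝ × ℝ) × ℝ)} {p : (ℝ × ℝ) × ℝ} (h : HasChart S p)
    {N : Set ((ℝ × ℝ) × ℝ)} (hN : N ∈ 𝓝 p) (hflat : ∀ q ∈ S ∩ N, q.2 = p.2) :
    {w : ℝ × ℝ | (w, p.2) ∈ S} ∈ 𝓝 p.1 := by
  have h1 := h.image_mem_nhds hN (fun q => H339.pairHomeo.toFun q.1)
    ((H339.pairHomeo.continuous.comp continuous_fst).continuousOn) (by
      intro a ha b hb hab
      have h2 : a.1 = b.1 := H339.pairHomeo.injective hab
      exact Prod.ext h2 ((hflat a ha).trans (hflat b hb).symm))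
  have h2 := H339.pairHomeo.continuous.continuousAt.preimage_mem_nhds h1
  refine mem_of_superset h2 ?_
  rintro w ⟨q, hq, hqw⟩
  have h3 : q.1 = w := H339.pairHomeo.injective hqw
  show (w, p.2) ∈ S
  rw [← h3, ← hflat q hq]
  exact hq.1

theorem _root_.P073.ConSphere.isPreconnected {n : ℕ} {S : Set E} (h : ConSphere (n + 1) S) :
    IsPreconnected S := by
  obtain ⟨φ⟩ := h
  rw [← φ.symm.image_eq]
  refine (isPreconnected_sphere ?_ _ _).image _ φ.symm.cont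
  rw [rank_fin_fun]
  exact_mod_cast (show (1:ℕ) < n + 1 + 1 by omega)

theorem _root_.P073.ConSphere.nonempty {n : ℕ} {S : Set E} (h : ConSphere n S) : S.Nonempty := by
  obtain ⟨φ⟩ := h
  rw [← φ.symm.image_eq]
  exact (NormedSpace.sphere_nonempty.2 zero_le_one).image _

/-- no proper subsphere -/
theorem _root_.P073.ConSphere.eq_of_subset {X S : Set E} (hX : ConSphere 2 X)
    (hS : ConSphere 2 S) (h : X ⊆ S) : X = S := by
  have hop : ∀ p ∈ X, ∃ N ∈ 𝓝 p, S ∩ N ⊆ X := by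
    intro p hp
    obtain ⟨O, f, g, hO, hpO, hf, hg, hfO, hgf⟩ := hS.hasChart (h hp)
    have hgi : InjOn g (S ∩ O) := by
      rintro a ha b hb hab
      obtain ⟨x, hx, rfl⟩ := hfO.symm.subset ha
      obtain ⟨y, hy, rfl⟩ := hfO.symm.subset hb
      rw [hgf x hx, hgf y hy] at hab
      rw [hab]
    have hsub : X ∩ O ⊆ S ∩ O := inter_subset_inter_left _ h
    have h1 := (hX.hasChart hp).image_mem_nhds (hO.mem_nhds hpO.2) g (hg.mono hsub)
      (hgi.mono hsub)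
    have h2 := (hg.continuousWithinAt hpO).preimage_mem_nhdsWithin' (t := g '' (X ∩ O))
      (mem_nhdsWithin_of_mem_nhds h1)
    rw [mem_nhdsWithin] at h2
    obtain ⟨U, hU, hpU, hUsub⟩ := h2
    refine ⟨U ∩ O, (hU.inter hO).mem_nhds ⟨hpU, hpO.2⟩, ?_⟩
    rintro q ⟨hqS, hqU, hqO⟩
    obtain ⟨r, hr, hrq⟩ := hUsub ⟨hqU, hqS, hqO⟩
    rw [← hgi (hsub hr) ⟨hqS, hqO⟩ hrq]
    exact hr.1
  refine Subset.antisymm h ?_
  have hXc : IsClosed X := (hX.isCompact).isClosed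
  by_contra hcon
  obtain ⟨y, hyS, hyX⟩ := not_subset.1 hcon
  obtain ⟨x, hx⟩ := hX.nonempty
  have hsub : S ⊆ X ∪ closure (S \ X) := fun z hz => by
    by_cases hzX : z ∈ X
    · exact Or.inl hzX
    · exact Or.inr (subset_closure ⟨hz, hzX⟩)
  obtain ⟨z, -, hzX, hzc⟩ := isPreconnected_closed_iff.1 hS.isPreconnected X (closure (S \ X)) hXc
    isClosed_closure hsub ⟨x, h hx, hx⟩ ⟨y, hyS, subset_closure ⟨hyS, hyX⟩⟩
  obtain ⟨N, hN, hNX⟩ := hop z hzX
  obtain ⟨w, hwN, hwS, hwX⟩ := mem_closure_iff_nhds.1 hzc N hN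
  exact hwX (hNX ⟨hwS, hwN⟩)

/-- no conical 2-sphere lies in a horizontal plane -/
theorem _root_.P073.ConSphere.not_subset_plane {S : Set ((ℝ × ℝ) × ℝ)} (h : ConSphere 2 S)
    (z : ℝ) : ¬ S ⊆ {p | p.2 = z} := by
  intro hS
  have hopen : IsOpen {w : ℝ × ℝ | (w, z) ∈ S} := by
    rw [isOpen_iff_mem_nhds]
    intro w hw
    exact slice_mem_nhds (h.hasChart hw) univ_mem (fun q hq => hS hq.1)
  have hcl : IsClosed {w : ℝ × ℝ | (w, z) ∈ S} :=
    h.isCompact.isClosed.preimage (Continuous.prodMk_left z)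
  obtain ⟨p, hp⟩ := h.nonempty
  have hne : {w : ℝ × ℝ | (w, z) ∈ S}.Nonempty := ⟨p.1, by
    show (p.1, z) ∈ S
    have : p.2 = z := hS hp
    rw [← this]; exact hp⟩
  have huniv := IsClopen.eq_univ ⟨hcl, hopen⟩ hne
  have hcomp : IsCompact (Prod.fst '' S) := h.isCompact.image continuous_fst
  have hsub : (univ : Set (ℝ × ℝ)) ⊆ Prod.fst '' S := by
    intro w _
    have : w ∈ {w : ℝ × ℝ | (w, z) ∈ S} := by rw [huniv]; trivial
    exact ⟨(w, z), this, rfl⟩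
  exact noncompact_univ (ℝ × ℝ) (univ_subset_iff.1 hsub ▸ hcomp)

end P073.ALX487
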